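import Mathlib
import Vale.Agent.Lib.P248.helper25.ABDefs

/-!
# P248, pool job AB9 (backup copy): three volume facts for the cone route

Haar scaling of an affine preimage, removal of the coordinate hyperplanes, and a
one-dimensional integral.
-/

open Vale.Agent.Lib.P248.H25 MeasureTheory
open scoped ENNReal

namespace Vale.Agent.Lib.P248.H75

theorem vol_affine_preimage {n : ℕ} (S : Set (Fin n → ℝ)) {a c : ℝ} (ha : 0 < a)
    (hc : 0 < c) (w : Fin n → ℝ) :
    volume ((fun z : Fin n → ℝ => a⁻¹ • (c • z - w)) ⁻¹' S) =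
      ENNReal.ofReal ((a / c) ^ n) * volume S := by
  have hr : c / a ≠ 0 := (div_pos hc ha).ne'
  have hset : (fun z : Fin n → ℝ => a⁻¹ • (c • z - w)) ⁻¹' S
      = (fun z : Fin n → ℝ => (c / a) • z) ⁻¹'
          ((fun y : Fin n → ℝ => y + (-(a⁻¹ • w))) ⁻¹' S) := by
    ext z
    simp only [Set.mem_preimage]
    have e : a⁻¹ • (c • z - w) = (c / a) • z + (-(a⁻¹ • w)) := by
      rw [smul_sub, smul_smul, ← sub_eq_add_neg]
      congr 2
      field_simp
    rw [e]
  rw [hset, Measure.addHaar_preimage_smul volume hr, measure_preimage_add_right]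
  congr 2
  rw [Module.finrank_fin_fun, ← inv_pow, inv_div, abs_of_nonneg (pow_nonneg (div_pos ha hc).le n)]

theorem vol_pos_part {n : ℕ} {S : Set (Fin n → ℝ)} (hS : ∀ b ∈ S, ∀ j, 0 ≤ b j) :
    volume (S ∩ {b | ∀ j, 0 < b j}) = volume S := by
  apply le_antisymm (measure_mono Set.inter_subset_left)
  have hsub : S \ {b : Fin n → ℝ | ∀ j, 0 < b j} ⊆ ⋃ j : Fin n, {b : Fin n → ℝ | b j = 0} := by
    intro b hb
    obtain ⟨hbS, hbn⟩ := hb
    simp only [Set.mem_ofPred_eq, not_forall, not_lt] at hbn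
    obtain ⟨j, hj⟩ := hbn
    exact Set.mem_iUnion.mpr ⟨j, le_antisymm hj (hS b hbS j)⟩
  have hnull : volume (S \ {b : Fin n → ℝ | ∀ j, 0 < b j}) = 0 := by
    apply measure_mono_null hsub
    rw [measure_iUnion_null_iff]
    intro j
    rw [volume_pi]
    exact Measure.pi_hyperplane (fun _ : Fin n => (volume : Measure ℝ)) j 0
  calc volume S ≤ volume (S ∩ {b | ∀ j, 0 < b j}) + volume (S \ {b | ∀ j, 0 < b j}) :=
        measure_le_inter_add_sdiff volume S _
    _ = volume (S ∩ {b | ∀ j, 0 < b j}) := by rw [hnull, add_zero]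

theorem lintegral_pow_cone (n : ℕ) {a : ℝ} (ha : 0 < a) :
    ∫⁻ s in Set.Ioo 0 a, ENNReal.ofReal (((a - s) / a) ^ n) = ENNReal.ofReal (a / (n + 1)) := by
  have hcont : Continuous (fun s : ℝ => ((a - s) / a) ^ n) := by fun_prop
  have hint : IntegrableOn (fun s : ℝ => ((a - s) / a) ^ n) (Set.Ioo 0 a) :=
    (hcont.integrableOn_Icc (a := 0) (b := a)).mono_set Set.Ioo_subset_Icc_self
  have hnn : 0 ≤ᵐ[volume.restrict (Set.Ioo 0 a)] (fun s : ℝ => ((a - s) / a) ^ n) := by
    refine (ae_restrict_iff' measurableSet_Ioo).mpr (Filter.Eventually.of_forall ?_)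
    intro s hs
    exact pow_nonneg (div_nonneg (sub_nonneg.mpr hs.2.le) ha.le) n
  rw [← ofReal_integral_eq_lintegral_ofReal hint hnn]
  congr 1
  rw [← integral_Ioc_eq_integral_Ioo, ← intervalIntegral.integral_of_le ha.le]
  have h1 : ∫ s in (0 : ℝ)..a, ((a - s) / a) ^ n = ∫ u in (0 : ℝ)..a, (u / a) ^ n := by
    have := intervalIntegral.integral_comp_sub_left (a := (0 : ℝ)) (b := a)
      (fun u : ℝ => (u / a) ^ n) a
    simpa using this
  have h2 : ∫ u in (0 : ℝ)..a, (u / a) ^ n = a * ∫ v in (0 : ℝ)..1, v ^ n := by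
    have := intervalIntegral.integral_comp_div (a := (0 : ℝ)) (b := a)
      (fun v : ℝ => v ^ n) ha.ne'
    simpa [ha.ne'] using this
  rw [h1, h2, integral_pow]
  simp
  field_simp

end Vale.Agent.Lib.P248.H75
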