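import Mathlib
import Vale.Agent.Lib.P248.helper37.Q2Defs

/-!
# P248 (helper75, second copy of pool leaf J4): `star_mem`

If `ξ ≥ 0` and `⟨y, ξ⟩ ≤ 1` for all `y` in the positive part of the polar of `A` about `z`, then
`z + ξ` lies in `A`.
-/

open MeasureTheory Set

namespace Vale.Agent.Lib.P248.H75Q

open Vale.Agent.Lib.P248.H37 Vale.Agent.Lib.P248.H37Q

/-- The positive part of a point of the polar of `A` about `z` lies in the positive polar. -/
theorem pos_part_mem {m : ℕ} {A : Set (Fin m → ℝ)} {z : Fin m → ℝ} (h : Adm A z)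
    (y : Fin m → ℝ) (hy : ∀ x ∈ A, ∑ i, (x i - z i) * y i ≤ 1) :
    (fun i => max (y i) 0) ∈ posZ A z := by
  refine ⟨fun i => le_max_right _ _, fun x hx => ?_⟩
  have hxt : (fun i => if 0 ≤ y i then x i else 0) ∈ A := by
    refine h.good.down x hx _ (fun i => ?_)
    have hxi := h.good.nonneg x hx i
    by_cases hi : 0 ≤ y i
    · simp [hi, hxi]
    · simp [hi, hxi]
  have h1 := hy _ hxt
  refine le_trans (Finset.sum_le_sum (fun i _ => ?_)) h1
  show (x i - z i) * max (y i) 0 ≤ ((if 0 ≤ y i then x i else 0) - z i) * y i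
  by_cases hi : 0 ≤ y i
  · rw [if_pos hi, max_eq_left hi]
  · have hneg : y i < 0 := not_le.mp hi
    rw [if_neg hi, max_eq_right hneg.le]
    nlinarith [mul_pos (h.pos i) (neg_pos.mpr hneg)]

/-- Separation: if `ξ ≥ 0` and `⟨y, ξ⟩ ≤ 1` on the positive polar of `A` about `z`, then
`z + ξ ∈ A`. -/
theorem star_mem {m : ℕ} {A : Set (Fin m → ℝ)} {z : Fin m → ℝ} (h : Adm A z) (ξ : Fin m → ℝ)
    (hξ : ∀ i, 0 ≤ ξ i) (hT : ∀ y ∈ posZ A z, ∑ i, y i * ξ i ≤ 1) :
    (fun i => z i + ξ i) ∈ A := by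
  have key : ∀ y : Fin m → ℝ, (∀ x ∈ A, ∑ i, (x i - z i) * y i ≤ 1) → ∑ i, y i * ξ i ≤ 1 := by
    intro y hy
    refine le_trans (Finset.sum_le_sum (fun i _ => ?_)) (hT _ (pos_part_mem h y hy))
    exact mul_le_mul_of_nonneg_right (le_max_left _ _) (hξ i)
  by_contra hp
  obtain ⟨f, s, hfs, hsp⟩ := geometric_hahn_banach_closed_point h.good.convex h.good.closed hp
  obtain ⟨c, hf⟩ : ∃ c : Fin m → ℝ, ∀ v : Fin m → ℝ, f v = ∑ i, v i * c i := by
    refine ⟨fun i => f (fun j => if i = j then 1 else 0), fun v => ?_⟩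
    have h0 := LinearMap.pi_apply_eq_sum_univ (f : (Fin m → ℝ) →ₗ[ℝ] ℝ) v
    simpa [smul_eq_mul] using h0
  have hzA : z ∈ A := by
    obtain ⟨ε, hε, hεA⟩ := h.room
    exact h.good.down _ hεA z (fun i => ⟨(h.pos i).le, by linarith⟩)
  obtain ⟨g, hgdef⟩ : ∃ g : ℝ, g = s - f z := ⟨_, rfl⟩
  have hg : 0 < g := by rw [hgdef]; linarith [hfs z hzA]
  have hy : ∀ x ∈ A, ∑ i, (x i - z i) * (c i / g) ≤ 1 := by
    intro x hx
    have h1 : ∑ i, (x i - z i) * (c i / g) = (f x - f z) / g := by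
      rw [hf x, hf z, ← Finset.sum_sub_distrib, Finset.sum_div]
      refine Finset.sum_congr rfl (fun i _ => ?_)
      ring
    rw [h1, div_le_one hg, hgdef]
    linarith [hfs x hx]
  have h2 := key (fun i => c i / g) hy
  have h3 : ∑ i, c i / g * ξ i = f ξ / g := by
    rw [hf ξ, Finset.sum_div]
    refine Finset.sum_congr rfl (fun i _ => ?_)
    ring
  rw [h3, div_le_one hg, hgdef] at h2
  have h4 : f (fun i => z i + ξ i) = f z + f ξ := by
    have h5 : (fun i => z i + ξ i) = z + ξ := rfl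
    rw [h5, map_add]
  linarith

end Vale.Agent.Lib.P248.H75Q
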